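import Vale.Agent.P011N.N.Per

/-!
The normal subgroup theorem for commensurators of cocompact lattices.
-/

open MeasureTheory Topology Set Filter Pointwise

namespace Vale.Agent.P011N.N

variable {H : Type} [Group H] [TopologicalSpace H] [IsTopologicalGroup H] [LocallyCompactSpace H]
  [T2Space H] [MeasurableSpace H] [BorelSpace H] {μ : Measure H} [μ.IsHaarMeasure] {φ : H → ℝ}
  {Γ N : Subgroup H}

/-- A nonnegative function with compact support whose translates add up to `c`. -/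
structure Pou (Γ : Subgroup H) (c : ℝ) (a : H → ℝ) : Prop where
  cont : Continuous a
  supp : HasCompactSupport a
  nonneg : ∀ x, 0 ≤ a x
  sum : ∀ g, per Γ (fun _ => 1) a g = c

omit [LocallyCompactSpace H] [T2Space H] [MeasurableSpace H] [BorelSpace H] in
theorem Pou.per_le (hl : Lat Γ N) {c : ℝ} {a : H → ℝ} (h : Pou Γ c a) {b : Γ → ℝ} {B : ℝ} {g : H}
    (hb : ∀ γ : Γ, a (γ * g) ≠ 0 → b γ ≤ B) : per Γ b a g ≤ B * c := by
  have h1 := per_lin hl h.supp (fun _ => 1) (fun _ => 1) B 0 g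
  rw [h.sum, zero_mul c, add_zero] at h1
  rw [← h1]
  refine per_mono hl h.supp fun γ => ?_
  by_cases h2 : a (γ * g) = 0
  · simp [h2]
  · exact mul_le_mul_of_nonneg_right (by simpa using hb γ h2) (h.nonneg _)

omit [LocallyCompactSpace H] [T2Space H] [MeasurableSpace H] [BorelSpace H] in
theorem Pou.le_per (hl : Lat Γ N) {c : ℝ} {a : H → ℝ} (h : Pou Γ c a) {b : Γ → ℝ} {B : ℝ} {g : H}
    (hb : ∀ γ : Γ, a (γ * g) ≠ 0 → B ≤ b γ) : B * c ≤ per Γ b a g := by
  have h1 := per_lin hl h.supp (fun _ => 1) (fun _ => 1) B 0 g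
  rw [h.sum, zero_mul c, add_zero] at h1
  rw [← h1]
  refine per_mono hl h.supp fun γ => ?_
  by_cases h2 : a (γ * g) = 0
  · simp [h2]
  · exact mul_le_mul_of_nonneg_right (by simpa using hb γ h2) (h.nonneg _)

omit [LocallyCompactSpace H] [T2Space H] [MeasurableSpace H] [BorelSpace H] in
theorem Pou.abs_per_le (hl : Lat Γ N) {c : ℝ} {a : H → ℝ} (h : Pou Γ c a) {b : Γ → ℝ} {B : ℝ}
    (hb : ∀ γ, |b γ| ≤ B) (g : H) : |per Γ b a g| ≤ B * c :=
  abs_le.2 ⟨by simpa using h.le_per hl (g := g) fun γ _ => (abs_le.1 (hb γ)).1,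
    h.per_le hl fun γ _ => (abs_le.1 (hb γ)).2⟩

theorem Pou.pP (k : Ker μ φ) (hl : Lat Γ N) {c : ℝ} {a : H → ℝ} (h : Pou Γ c a) :
    Pou Γ c (P μ φ a) :=
  ⟨k.cont_P h.cont, k.supp_P h.supp, fun _ => k.le_P h.cont fun _ _ => h.nonneg _, fun g => by
    rw [← k.P_per hl h.cont h.supp, funext h.sum, k.P_const]⟩

theorem Pou.iter (k : Ker μ φ) (hl : Lat Γ N) {c : ℝ} {a : H → ℝ} (h : Pou Γ c a) (n : ℕ) :
    Pou Γ c ((P μ φ)^[n] a) := by
  induction n with
  | zero => exact h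
  | succ n ih => rw [Function.iterate_succ_apply']; exact ih.pP k hl

/-- The sum of the first iterates. -/
noncomputable def vs (μ : Measure H) (φ a : H → ℝ) (n : ℕ) (x : H) : ℝ :=
  ∑ i ∈ Finset.range n, (P μ φ)^[i] a x

theorem Pou.pvs (k : Ker μ φ) (hl : Lat Γ N) {a : H → ℝ} (h : Pou Γ 1 a) (n : ℕ) :
    Pou Γ n (vs μ φ a n) := by
  induction n with
  | zero =>
    have : vs μ φ a 0 = fun _ => 0 := by ext; simp [vs]
    rw [this]
    exact ⟨continuous_const, HasCompactSupport.zero, fun _ => le_rfl, fun g => by simp [per]⟩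
  | succ n ih =>
    have : vs μ φ a (n + 1) = fun x => vs μ φ a n x + (P μ φ)^[n] a x := by
      ext; simp [vs, Finset.sum_range_succ]
    have h1 := h.iter k hl n
    rw [this]
    exact ⟨ih.cont.add h1.cont, ih.supp.add h1.supp, fun x => add_nonneg (ih.nonneg x) (h1.nonneg x),
      fun g => by rw [per_add hl ih.supp h1.supp, ih.sum, h1.sum]; push_cast; rfl⟩

theorem Pou.vs_eq (k : Ker μ φ) (hl : Lat Γ N) {a : H → ℝ} (h : Pou Γ 1 a) (n : ℕ) (x : H) :
    vs μ φ a n x + (P μ φ)^[n] a x = a x + P μ φ (vs μ φ a n) x := by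
  have h1 := k.P_sum (Finset.range n) (f := fun i => (P μ φ)^[i] a)
    (fun i _ => (h.iter k hl i).cont) x
  rw [show P μ φ (vs μ φ a n) x = _ from h1, vs, ← Finset.sum_range_succ,
    Finset.sum_range_succ', add_comm]
  simp only [Function.iterate_succ_apply', Function.iterate_zero_apply]

/-- The gradient estimate holds with the constant `C`. -/
def Grad (μ : Measure H) (φ : H → ℝ) (M : Subgroup H) (C : ℝ) : Prop :=
  ∀ (u : H → ℝ) (B ε : ℝ), Continuous u → (∀ g, |u g| ≤ B) →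
    (∀ m ∈ M, ∀ g, u (m * g) = u g) → (∀ g, |u g - P μ φ u g| ≤ ε) → Lip φ (C * ε) u

theorem Pou.lip (k : Ker μ φ) (hl : Lat Γ N) {C : ℝ} (hC : Grad μ φ (Γ ⊓ N) C) {a : H → ℝ}
    (h : Pou Γ 1 a) (n : ℕ) {b : Γ → ℝ} {B : ℝ} (hb : ∀ γ, |b γ| ≤ B)
    (hi : ∀ γ m : Γ, m.1 ∈ N → b (γ * m) = b γ) :
    Lip φ (C * (2 * B)) (per Γ b (vs μ φ a n)) := by
  have hv := h.pvs k hl n
  have hn := h.iter k hl n
  refine hC _ _ _ (cont_per hl hv.cont hv.supp b) (hv.abs_per_le hl hb) (per_inv hi _) fun g => ?_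
  have h1 := per_add hl hv.supp hn.supp b g
  rw [funext (h.vs_eq k hl n), per_add hl h.supp (hv.pP k hl).supp, ← k.P_per hl hv.cont hv.supp]
    at h1
  have h2 := abs_le.1 (h.abs_per_le hl hb g)
  have h3 := abs_le.1 (hn.abs_per_le hl hb g)
  rw [abs_le]
  constructor <;> linarith [h2.1, h2.2, h3.1, h3.2]

/-- The random walk does not escape. -/
theorem Pou.tight (k : Ker μ φ) (hl : Lat Γ N) {C : ℝ} (hC : Grad μ φ (Γ ⊓ N) C) {ψ : H → ℝ}
    (h : Pou Γ 1 ψ) (n : ℕ) {f : H → ℝ} (hf : Continuous f) {L : ℝ} (hL : Lip φ L f)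
    (hM : ∀ m ∈ Γ ⊓ N, ∀ g, f (m * g) = f g) :
    ∫ g, (P μ φ)^[n] ψ g * f g ∂μ ≤ ∫ g, ψ g * f g ∂μ + C * L * ∫ g, ψ g ∂μ := by
  have hv := h.pvs k hl n
  have hn := h.iter k hl n
  have he := h.vs_eq k hl n
  have hlip := fun (b : Γ → ℝ) => h.lip k hl hC n (b := b) (B := L)
  set v := vs μ φ ψ n
  have hvc := hv.cont
  have hP := hv.pP k hl
  have hfv : Continuous fun y => v y * f y := hvc.mul hf
  have hfs : HasCompactSupport fun y => v y * f y := hv.supp.mul_right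
  let W : H → ℝ := fun g => P μ φ (fun y => (f g - f y) * (v g - v y)) g
  have hW : W = fun g => v g * f g - P μ φ v g * f g - v g * P μ φ f g +
      P μ φ (fun y => v y * f y) g := by
    ext g
    have e : (fun y => (f g - f y) * (v g - v y)) =
        fun y => v g * f g - f g * v y - v g * f y + v y * f y := by ext; ring
    simp only [W]
    rw [e, k.P_add (by fun_prop) hfv, k.P_sub (by fun_prop) (by fun_prop),
      k.P_sub continuous_const (by fun_prop), k.P_const, P_mul, P_mul]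
    ring
  have i1 := hfv.integrable_of_hasCompactSupport (μ := μ) hfs
  have c2 : Continuous fun g => P μ φ v g * f g := hP.cont.mul hf
  have s2 : HasCompactSupport fun g => P μ φ v g * f g := hP.supp.mul_right
  have i2 := c2.integrable_of_hasCompactSupport (μ := μ) s2
  have c3 : Continuous fun g => v g * P μ φ f g := hvc.mul (k.cont_P hf)
  have s3 : HasCompactSupport fun g => v g * P μ φ f g := hv.supp.mul_right
  have i3 := c3.integrable_of_hasCompactSupport (μ := μ) s3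
  have i4 := (k.cont_P hfv).integrable_of_hasCompactSupport (μ := μ) (k.supp_P hfs)
  have hWc : Continuous W := by rw [hW]; exact ((hfv.sub c2).sub c3).add (k.cont_P hfv)
  have hWs : HasCompactSupport W := by rw [hW]; exact ((hfs.sub s2).sub s3).add (k.supp_P hfs)
  have e1 : ∫ g, W g ∂μ = 2 * (∫ g, v g * f g ∂μ - ∫ g, P μ φ v g * f g ∂μ) := by
    have j1 : Integrable (fun g => v g * f g - P μ φ v g * f g) μ := i1.sub i2
    have j2 : Integrable (fun g => v g * f g - P μ φ v g * f g - v g * P μ φ f g) μ := j1.sub i3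
    simp only [hW]
    rw [integral_add j2 i4, integral_sub j1 i3, integral_sub i1 i2,
      k.integral_P hfv hfs, k.P_symm hvc hv.supp hf]
    ring
  have i5 : Integrable (fun g => (P μ φ)^[n] ψ g * f g) μ :=
    (hn.cont.mul hf).integrable_of_hasCompactSupport hn.supp.mul_right
  have i6 : Integrable (fun g => ψ g * f g) μ :=
    (h.cont.mul hf).integrable_of_hasCompactSupport h.supp.mul_right
  have e2 : ∫ g, v g * f g ∂μ + ∫ g, (P μ φ)^[n] ψ g * f g ∂μ =
      ∫ g, ψ g * f g ∂μ + ∫ g, P μ φ v g * f g ∂μ := by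
    rw [← integral_add i1 i5, ← integral_add i6 i2]
    congr 1; ext g
    rw [← add_mul, ← add_mul, he]
  have e3 : ∀ g, -(C * (2 * L)) ≤ per Γ (fun _ => 1) W g := by
    intro g
    obtain ⟨F, hF⟩ := exists_finset hl hv.supp (k.supp.isCompact.image (continuous_const_mul g))
    have hF1 := hF g ⟨1, k.one_mem, mul_one g⟩
    rw [per_eq (F := F) fun γ hγ => ?_]
    · have e : ∑ γ ∈ F, 1 * W (γ * g) = P μ φ (fun y => ∑ γ ∈ F,
          (f (γ * g) - f (γ * y)) * (v (γ * g) - v (γ * y))) g := by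
        rw [k.P_sum F fun γ _ => by fun_prop]
        exact Finset.sum_congr rfl fun γ _ => by
          rw [one_mul, P_left (fun y => (f (γ * g) - f y) * (v (γ * g) - v y))]
      rw [e]
      refine k.le_P (by fun_prop) fun x hx => ?_
      have h1 := hlip (fun γ => f (γ * g) - f (γ * (g * x))) (fun γ => by
        rw [abs_sub_comm, ← mul_assoc]; exact hL _ x hx) (fun γ m hm => by
        have h2 : ∀ y, f ((γ * m : Γ) * y) = f (γ * y) := fun y => by
          rw [← hM _ ⟨(γ * m * γ⁻¹).2, hl.norm γ γ.2 m hm⟩ (γ * y)]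
          congr 1; simp [mul_assoc]
        rw [h2, h2]) g x hx
      rw [per_eq hF1, per_eq (hF _ ⟨x, hx, rfl⟩), ← Finset.sum_sub_distrib] at h1
      refine le_of_le_of_eq (neg_le_neg (abs_le.1 h1).2) ?_
      rw [← Finset.sum_neg_distrib]
      exact Finset.sum_congr rfl fun γ _ => by ring
    · simp only [W]
      rw [← k.P_const 0 (γ * g)]
      refine k.P_congr fun x hx => ?_
      rw [hF1 γ hγ, mul_assoc, hF _ ⟨x, hx, rfl⟩ γ hγ, sub_self, mul_zero]
  have e4 : ∫ g, ψ g * -(C * (2 * L)) ∂μ ≤ ∫ g, W g ∂μ := by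
    rw [fold hl h.cont h.supp h.sum hWc hWs]
    exact integral_mono ((h.cont.mul continuous_const).integrable_of_hasCompactSupport
      h.supp.mul_right) ((h.cont.mul (cont_per hl hWc hWs _)).integrable_of_hasCompactSupport
      h.supp.mul_right) fun g => mul_le_mul_of_nonneg_left (e3 g) (h.nonneg g)
  rw [integral_mul_const] at e4
  linarith

/-- The word length modulo `M`. -/
noncomputable def len (M : Subgroup H) (S : Set H) (g : H) : ℕ :=
  sInf {j | ∃ m ∈ M, m * g ∈ S ^ j}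

omit [LocallyCompactSpace H] [T2Space H] [BorelSpace H] [μ.IsHaarMeasure] in
theorem Ker.len_le (k : Ker μ φ) (M : Subgroup H) (g : H) (j : ℕ) :
    len M (tsupport φ) g ≤ j ↔ ∃ m ∈ M, m * g ∈ tsupport φ ^ j := by
  refine ⟨fun h => ?_, fun h => Nat.sInf_le h⟩
  obtain ⟨i, hi⟩ := k.exists_pow g
  obtain ⟨m, hm, h1⟩ := Nat.sInf_mem (s := {j | ∃ m ∈ M, m * g ∈ tsupport φ ^ j})
    ⟨i, 1, M.one_mem, by rwa [one_mul]⟩
  exact ⟨m, hm, Set.pow_subset_pow_right k.one_mem h h1⟩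

omit [LocallyCompactSpace H] [T2Space H] [BorelSpace H] [μ.IsHaarMeasure] in
theorem Ker.len_mul (k : Ker μ φ) (M : Subgroup H) (g : H) {x : H} (hx : x ∈ tsupport φ) :
    len M (tsupport φ) (g * x) ≤ len M (tsupport φ) g + 1 := by
  obtain ⟨m, hm, h⟩ := (k.len_le M g _).1 le_rfl
  exact (k.len_le M _ _).2 ⟨m, hm, by rw [pow_succ, ← mul_assoc]; exact Set.mul_mem_mul h hx⟩

omit [LocallyCompactSpace H] [T2Space H] [BorelSpace H] [μ.IsHaarMeasure] in
theorem Ker.len_abs (k : Ker μ φ) (M : Subgroup H) (g : H) {x : H} (hx : x ∈ tsupport φ) :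
    |(len M (tsupport φ) (g * x) : ℝ) - len M (tsupport φ) g| ≤ 1 := by
  have h1 : (len M (tsupport φ) (g * x) : ℝ) ≤ len M (tsupport φ) g + 1 := by
    exact_mod_cast k.len_mul M g hx
  have h2 : (len M (tsupport φ) g : ℝ) ≤ len M (tsupport φ) (g * x) + 1 := by
    have := k.len_mul M (g * x) (k.inv_mem hx)
    rw [mul_inv_cancel_right] at this
    exact_mod_cast this
  rw [abs_le]
  constructor <;> linarith

omit [IsTopologicalGroup H] [TopologicalSpace H] [LocallyCompactSpace H] [T2Space H]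
  [MeasurableSpace H] [BorelSpace H] in
theorem len_left (M : Subgroup H) (S : Set H) {m : H} (hm : m ∈ M) (g : H) :
    len M S (m * g) = len M S g := by
  unfold len
  congr 1
  ext j
  exact ⟨fun ⟨a, ha, h⟩ => ⟨a * m, M.mul_mem ha hm, by rwa [mul_assoc]⟩,
    fun ⟨a, ha, h⟩ => ⟨a * m⁻¹, M.mul_mem ha (M.inv_mem hm), by simpa [mul_assoc] using h⟩⟩

omit [LocallyCompactSpace H] [T2Space H] [BorelSpace H] [μ.IsHaarMeasure] in
theorem Ker.inv_mem_pow (k : Ker μ φ) (j : ℕ) : ∀ x ∈ tsupport φ ^ j, x⁻¹ ∈ tsupport φ ^ j := by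
  induction j with
  | zero => intro x hx; simp only [pow_zero, Set.mem_one] at hx ⊢; simp [hx]
  | succ j ih =>
    intro x hx
    rw [pow_succ] at hx
    obtain ⟨a, ha, b, hb, rfl⟩ := hx
    rw [pow_succ', mul_inv_rev]
    exact Set.mul_mem_mul (k.inv_mem hb) (ih a ha)

theorem len_bdd (k : Ker μ φ) (hl : Lat Γ N) {C : ℝ} (hC0 : 0 ≤ C) (hC : Grad μ φ (Γ ⊓ N) C)
    {ψ : H → ℝ} (h : Pou Γ 1 ψ) (hψ : tsupport ψ ⊆ tsupport φ) :
    ∃ R, ∀ γ ∈ Γ, len (Γ ⊓ N) (tsupport φ) γ ≤ R := by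
  classical
  set l := len (Γ ⊓ N) (tsupport φ) with hl0
  have hr : ∀ γ m : Γ, m.1 ∈ N → l ((γ * m : Γ) : H) = l γ := fun γ m hm => by
    rw [hl0, ← len_left (Γ ⊓ N) _ (m := γ * m * γ⁻¹) ⟨(γ * m * γ⁻¹).2, hl.norm γ γ.2 m hm⟩ γ]
    congr 1; simp
  let f : H → ℝ := per Γ (fun γ => l (γ : H)⁻¹) ψ
  have hf : Continuous f := cont_per hl h.cont h.supp _
  have hM : ∀ m ∈ Γ ⊓ N, ∀ g, f (m * g) = f g := per_inv (fun γ m hm => by
    rw [Subgroup.coe_mul, mul_inv_rev, hl0, len_left _ _ ((Γ ⊓ N).inv_mem ⟨m.2, hm⟩)]) ψ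
  have hfl : ∀ g, |f g - l g| ≤ 1 := by
    intro g
    have h1 : ∀ γ : Γ, ψ (γ * g) ≠ 0 → |(l g : ℝ) - l (γ : H)⁻¹| ≤ 1 := fun γ hγ => by
      simpa using k.len_abs (Γ ⊓ N) (γ : H)⁻¹ (hψ (subset_tsupport _ hγ))
    have h2 := h.per_le hl (b := fun γ => l (γ : H)⁻¹) (B := l g + 1) (g := g) fun γ hγ => by
      linarith [(abs_le.1 (h1 γ hγ)).1]
    have h3 := h.le_per hl (b := fun γ => l (γ : H)⁻¹) (B := l g - 1) (g := g) fun γ hγ => by
      linarith [(abs_le.1 (h1 γ hγ)).2]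
    rw [abs_le]
    constructor <;> linarith
  have hf0 : ∀ g, 0 ≤ f g := fun g => by
    simpa using h.le_per hl (b := fun γ => l (γ : H)⁻¹) (B := 0) (g := g) fun γ _ =>
      Nat.cast_nonneg _
  have hL : Lip φ 3 f := fun g x hx => by
    have h1 := abs_le.1 (hfl g)
    have h2 := abs_le.1 (hfl (g * x))
    have h3 := abs_le.1 (k.len_abs (Γ ⊓ N) g hx)
    rw [abs_le]
    constructor <;> linarith
  have iψ := h.cont.integrable_of_hasCompactSupport (μ := μ) h.supp
  have hI : 0 < ∫ g, ψ g ∂μ := by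
    have h1 : ∃ x, ψ x ≠ 0 := by
      by_contra h2
      push Not at h2
      simpa [per, h2] using h.sum 1
    obtain ⟨x, hx⟩ := h1
    exact h.cont.integral_pos_of_hasCompactSupport_nonneg_nonzero h.supp h.nonneg hx
  have hup : ∀ n : ℕ, ∫ g, vs μ φ ψ n g * f g ∂μ ≤ n * ((2 + C * 3) * ∫ g, ψ g ∂μ) := by
    intro n
    have h1 : ∫ g, ψ g * f g ∂μ ≤ ∫ g, ψ g * 2 ∂μ := by
      refine integral_mono ((h.cont.mul hf).integrable_of_hasCompactSupport h.supp.mul_right)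
        (iψ.mul_const 2) fun g => ?_
      by_cases hg : ψ g = 0
      · simp [hg]
      refine mul_le_mul_of_nonneg_left ?_ (h.nonneg g)
      have h2 : (l g : ℝ) ≤ 1 := by
        exact_mod_cast (k.len_le _ g 1).2 ⟨1, Subgroup.one_mem _, by
          simpa using hψ (subset_tsupport _ hg)⟩
      linarith [(abs_le.1 (hfl g)).2]
    rw [integral_mul_const] at h1
    simp only [vs, Finset.sum_mul]
    rw [integral_finsetSum (f := fun i g => (P μ φ)^[i] ψ g * f g) _ fun i _ =>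
      ((h.iter k hl i).cont.mul hf).integrable_of_hasCompactSupport (h.iter k hl i).supp.mul_right]
    refine (Finset.sum_le_card_nsmul _ _ ((2 + C * 3) * ∫ g, ψ g ∂μ) fun i _ => ?_).trans (by simp)
    linarith [h.tight k hl hC i hf hL hM]
  obtain ⟨T, hT⟩ := exists_nat_gt (2 * (2 + C * 3) + 2)
  refine ⟨(T + 1) + (T + 1), fun δ hδ => ?_⟩
  by_contra hbig
  obtain ⟨j, hj⟩ := k.exists_pow δ
  let b : Γ → ℝ := fun γ => if l γ ≤ T + 1 then 1 else 0
  have hdis : ∀ γ : Γ, 1 * b γ + 1 * b (γ * (⟨δ, hδ⟩ : Γ)⁻¹) ≤ 1 := by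
    intro γ
    simp only [b]
    split_ifs with h1 h2 h2
    · obtain ⟨m, hm, h3⟩ := (k.len_le _ _ _).1 h1
      obtain ⟨m', hm', h4⟩ := (k.len_le _ _ _).1 h2
      refine absurd ((k.len_le _ _ _).2 ⟨δ * (γ : H)⁻¹ * (m'⁻¹ * m) * (δ * (γ : H)⁻¹)⁻¹, ?_, ?_⟩)
        hbig
      · have h5 : δ * (γ : H)⁻¹ ∈ Γ := Γ.mul_mem hδ (Γ.inv_mem γ.2)
        have h6 := Subgroup.mul_mem _ (Subgroup.inv_mem _ hm') hm
        exact ⟨Γ.mul_mem (Γ.mul_mem h5 h6.1) (Γ.inv_mem h5), hl.norm _ h5 _ h6.2⟩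
      · rw [pow_add]
        refine ⟨_, k.inv_mem_pow _ _ h4, _, h3, ?_⟩
        simp [mul_assoc]
    all_goals norm_num
  have hlow : ∀ n : ℕ, T * (n / 2 - (j + 2) * C) * ∫ g, ψ g ∂μ ≤ ∫ g, vs μ φ ψ n g * f g ∂μ := by
    intro n
    have hv := h.pvs k hl n
    have hlip := h.lip k hl hC n (b := b) (B := 1) (fun γ => by
      simp only [b]; split_ifs <;> norm_num) fun γ m hm => by simp only [b, hr γ m hm]
    have hvf : Continuous fun g => vs μ φ ψ n g * f g := hv.cont.mul hf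
    have hvs : HasCompactSupport fun g => vs μ φ ψ n g * f g := hv.supp.mul_right
    rw [fold hl h.cont h.supp h.sum hvf hvs, mul_comm, ← integral_mul_const]
    refine integral_mono (iψ.mul_const _) ((h.cont.mul
      (cont_per hl hvf hvs _)).integrable_of_hasCompactSupport h.supp.mul_right) fun g => ?_
    by_cases hg : ψ g = 0
    · simp [hg]
    refine mul_le_mul_of_nonneg_left ?_ (h.nonneg g)
    have hgS := hψ (subset_tsupport _ hg)
    have h1 : per Γ (fun _ => 1) (fun g => vs μ φ ψ n g * f g) g =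
        per Γ (fun γ => f (γ * g)) (vs μ φ ψ n) g := by
      simp only [per, one_mul, mul_comm]
    have h2 : per Γ (fun γ => T * 1 + -T * b γ) (vs μ φ ψ n) g ≤
        per Γ (fun γ => f (γ * g)) (vs μ φ ψ n) g := by
      refine per_mono hl hv.supp fun γ => mul_le_mul_of_nonneg_right ?_ (hv.nonneg _)
      simp only [b]
      split_ifs with h3
      · simpa using hf0 _
      · have h4 : (T + 2 : ℝ) ≤ l γ := by exact_mod_cast not_le.1 h3
        linarith [(abs_le.1 (hfl (γ * g))).1, (abs_le.1 (k.len_abs (Γ ⊓ N) γ hgS)).1]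
    rw [per_lin hl hv.supp, hv.sum] at h2
    have h3 := hv.per_le hl (g := g) fun γ _ => hdis γ
    rw [per_lin hl hv.supp, ← per_shift] at h3
    have h4 := hlip.pow (j + 2) g (g⁻¹ * δ * g) (by
      rw [pow_succ, pow_succ']
      exact Set.mul_mem_mul (Set.mul_mem_mul (k.inv_mem hgS) hj) hgS)
    rw [show g * (g⁻¹ * δ * g) = δ * g by group] at h4
    have h5 : per Γ b (vs μ φ ψ n) g ≤ n / 2 + (j + 2) * C := by
      have := (abs_le.1 h4).1
      push_cast at this h3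
      linarith
    rw [h1]
    refine le_trans ?_ h2
    nlinarith [Nat.cast_nonneg (α := ℝ) T]
  obtain ⟨n, hn⟩ := exists_nat_gt (T * ((j + 2) * C))
  have h1 := (hlow n).trans (hup n)
  rw [← mul_assoc] at h1
  have h2 := le_of_mul_le_mul_right h1 hI
  have h3 : (0 : ℝ) ≤ T * ((j + 2) * C) := by positivity
  nlinarith

theorem nst : NST := by
  intro H _ _ _ _ _ _ Γ N hl hd ⟨C, hC, hg⟩ hχ
  borelize H
  obtain ⟨ψ, h1, h2, h3, h4⟩ := exists_psi hl
  obtain ⟨φ, k, hW⟩ := exists_ker (Measure.haar : Measure H) (hC.union h2.isCompact)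
    (by rw [eq_top_iff, ← hg]; exact Subgroup.closure_mono subset_union_left)
  obtain ⟨D, hD0, hD⟩ := k.grad hl hd hχ
  obtain ⟨R, hR⟩ := len_bdd k hl hD0 hD ⟨h1, h2, h3, h4⟩ (subset_union_right.trans hW)
  have hc : ∀ j : ℕ, IsCompact (tsupport φ ^ j) := by
    intro j
    induction j with
    | zero => exact isCompact_singleton
    | succ j ih => rw [pow_succ]; exact ih.mul k.supp.isCompact
  have : Finite ↥(tsupport φ ^ R ∩ (Γ : Set H)) := (hl.disc _ (hc R)).to_subtype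
  have : Finite (Γ ⧸ N.subgroupOf Γ) := by
    refine Finite.of_surjective (fun s : ↥(tsupport φ ^ R ∩ (Γ : Set H)) =>
      (QuotientGroup.mk (⟨s.1, s.2.2⟩ : Γ)⁻¹ : Γ ⧸ N.subgroupOf Γ)) fun q => ?_
    obtain ⟨γ, rfl⟩ := QuotientGroup.mk_surjective q
    obtain ⟨m, hm, h5⟩ := (k.len_le _ _ _).1 (hR _ (γ⁻¹).2)
    refine ⟨⟨_, h5, Γ.mul_mem hm.1 (γ⁻¹).2⟩, QuotientGroup.eq.2 ?_⟩
    simpa [Subgroup.mem_subgroupOf] using hm.2
  exact Subgroup.index_ne_zero_of_finite

end Vale.Agent.P011N.N
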