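import Mathlib

/-!
The averaging operator of a symmetric kernel on a locally compact group.
-/

open MeasureTheory Topology Set Filter Pointwise

namespace Vale.Agent.P011N.N

variable {H : Type} [Group H] [TopologicalSpace H] [IsTopologicalGroup H] [LocallyCompactSpace H]
  [T2Space H] [MeasurableSpace H] [BorelSpace H]

/-- A symmetric kernel. -/
structure Ker (μ : Measure H) (φ : H → ℝ) : Prop where
  cont : Continuous φ
  supp : HasCompactSupport φ
  nonneg : ∀ x, 0 ≤ φ x
  symm : ∀ x, φ x⁻¹ = φ x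
  one : ∫ x, φ x ∂μ = 1
  pos : 0 < φ 1
  gen : Subgroup.closure {x | 0 < φ x} = ⊤

/-- The averaging operator. -/
noncomputable def P (μ : Measure H) (φ f : H → ℝ) (g : H) : ℝ := ∫ x, φ x * f (g * x) ∂μ

/-- The modulus of continuity of the kernel. -/
noncomputable def eta (μ : Measure H) (φ : H → ℝ) (y : H) : ℝ := ∫ x, |φ (y⁻¹ * x) - φ x| ∂μ

/-- The steps in the support of the kernel change the function by at most `L`. -/
def Lip (φ : H → ℝ) (L : ℝ) (f : H → ℝ) : Prop := ∀ g, ∀ x ∈ tsupport φ, |f (g * x) - f g| ≤ L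

variable {μ : Measure H} [μ.IsHaarMeasure] {φ : H → ℝ}

omit [LocallyCompactSpace H] [T2Space H] [BorelSpace H] [μ.IsHaarMeasure] in
theorem Ker.inv_mem (k : Ker μ φ) {x : H} (hx : x ∈ tsupport φ) : x⁻¹ ∈ tsupport φ := by
  have h1 : (fun x : H => x⁻¹) '' Function.support φ ⊆ Function.support φ := by
    rintro _ ⟨y, hy, rfl⟩
    simpa [Function.mem_support, k.symm] using hy
  exact closure_mono h1 (image_closure_subset_closure_image continuous_inv ⟨x, hx, rfl⟩)

omit [IsTopologicalGroup H] [LocallyCompactSpace H] [T2Space H] [BorelSpace H]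
  [μ.IsHaarMeasure] in
theorem Ker.nhds (k : Ker μ φ) : tsupport φ ∈ 𝓝 (1 : H) :=
  mem_of_superset ((isOpen_lt continuous_const k.cont).mem_nhds k.pos)
    fun _ hx => subset_tsupport _ (ne_of_gt hx)

omit [IsTopologicalGroup H] [LocallyCompactSpace H] [T2Space H] [BorelSpace H]
  [μ.IsHaarMeasure] in
theorem Ker.one_mem (k : Ker μ φ) : (1 : H) ∈ tsupport φ := mem_of_mem_nhds k.nhds

omit [LocallyCompactSpace H] [T2Space H] [BorelSpace H] [μ.IsHaarMeasure] in
theorem Ker.exists_pow (k : Ker μ φ) (g : H) : ∃ j : ℕ, g ∈ tsupport φ ^ j := by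
  have hg : g ∈ Subgroup.closure {x | 0 < φ x} := by rw [k.gen]; trivial
  induction hg using Subgroup.closure_induction_right with
  | one => exact ⟨0, by simp⟩
  | mul_right x _ y hy ih =>
    obtain ⟨j, hj⟩ := ih
    exact ⟨j + 1, by
      rw [pow_succ]; exact Set.mul_mem_mul hj (subset_tsupport _ (ne_of_gt hy))⟩
  | mul_inv_cancel x _ y hy ih =>
    obtain ⟨j, hj⟩ := ih
    exact ⟨j + 1, by
      rw [pow_succ]; exact Set.mul_mem_mul hj (k.inv_mem (subset_tsupport _ (ne_of_gt hy)))⟩

omit [LocallyCompactSpace H] [T2Space H] [BorelSpace H] [μ.IsHaarMeasure] in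
theorem Ker.compact_pow (k : Ker μ φ) {T : Set H} (hT : IsCompact T) :
    ∃ j : ℕ, T ⊆ tsupport φ ^ j := by
  refine hT.induction_on (p := fun T => ∃ j : ℕ, T ⊆ tsupport φ ^ j) ⟨0, empty_subset _⟩
    (fun s t hst ⟨j, hj⟩ => ⟨j, hst.trans hj⟩) ?_ ?_
  · rintro s t ⟨i, hi⟩ ⟨j, hj⟩
    exact ⟨max i j, union_subset (hi.trans (Set.pow_subset_pow_right k.one_mem (le_max_left _ _)))
      (hj.trans (Set.pow_subset_pow_right k.one_mem (le_max_right _ _)))⟩
  · intro x _
    obtain ⟨j, hj⟩ := k.exists_pow x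
    refine ⟨tsupport φ ^ (j + 1), mem_nhdsWithin_of_mem_nhds ?_, j + 1, subset_rfl⟩
    have h1 : (fun y => x⁻¹ * y) ⁻¹' tsupport φ ∈ 𝓝 x :=
      (continuous_const.mul continuous_id).continuousAt.preimage_mem_nhds (by simpa using k.nhds)
    refine mem_of_superset h1 fun y hy => ?_
    rw [pow_succ]
    exact ⟨x, hj, x⁻¹ * y, hy, by simp⟩

omit [IsTopologicalGroup H] [LocallyCompactSpace H] [T2Space H] [MeasurableSpace H]
  [BorelSpace H] in
theorem Lip.pow {L : ℝ} {f : H → ℝ} (h : Lip φ L f) (j : ℕ) (g : H) :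
    ∀ y ∈ tsupport φ ^ j, |f (g * y) - f g| ≤ j * L := by
  induction j with
  | zero => intro y hy; simp only [pow_zero, Set.mem_one] at hy; simp [hy]
  | succ j ih =>
    intro y hy
    rw [pow_succ] at hy
    obtain ⟨a, ha, b, hb, rfl⟩ := hy
    have h1 := ih a ha
    have h2 := h (g * a) b hb
    rw [mul_assoc] at h2
    push_cast
    calc |f (g * (a * b)) - f g| = |(f (g * (a * b)) - f (g * a)) + (f (g * a) - f g)| := by
          ring_nf
      _ ≤ _ := (abs_add_le _ _).trans (by linarith)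

omit [LocallyCompactSpace H] [T2Space H] in
theorem Ker.integrable (k : Ker μ φ) {f : H → ℝ} (hf : Continuous f) (g : H) :
    Integrable (fun x => φ x * f (g * x)) μ :=
  (k.cont.mul (hf.comp (continuous_const.mul continuous_id))).integrable_of_hasCompactSupport
    k.supp.mul_right

omit [LocallyCompactSpace H] [T2Space H] in
theorem Ker.integrable' (k : Ker μ φ) {f : H → ℝ} (hf : Continuous f) :
    Integrable (fun x => φ x * f x) μ :=
  (k.cont.mul hf).integrable_of_hasCompactSupport k.supp.mul_right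

omit [LocallyCompactSpace H] [T2Space H] in
theorem Ker.cont_P (k : Ker μ φ) {f : H → ℝ} (hf : Continuous f) : Continuous (P μ φ f) := by
  rw [← continuousOn_univ]
  refine continuousOn_integral_of_compact_support (f := fun g x => φ x * f (g * x)) k.supp
    (Continuous.continuousOn ?_) fun p x _ hx => ?_
  · exact (k.cont.comp continuous_snd).mul (hf.comp (continuous_fst.mul continuous_snd))
  · simp [image_eq_zero_of_notMem_tsupport hx]

omit [IsTopologicalGroup H] [LocallyCompactSpace H] [T2Space H] [BorelSpace H]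
  [μ.IsHaarMeasure] in
theorem Ker.P_const (k : Ker μ φ) (c : ℝ) (g : H) : P μ φ (fun _ => c) g = c := by
  simp [P, integral_mul_const, k.one]

omit [LocallyCompactSpace H] [T2Space H] in
theorem Ker.P_sub (k : Ker μ φ) {f h : H → ℝ} (hf : Continuous f) (hh : Continuous h) (g : H) :
    P μ φ (fun x => f x - h x) g = P μ φ f g - P μ φ h g := by
  simp only [P, mul_sub]
  exact integral_sub (k.integrable hf g) (k.integrable hh g)

omit [LocallyCompactSpace H] [T2Space H] in
theorem Ker.P_add (k : Ker μ φ) {f h : H → ℝ} (hf : Continuous f) (hh : Continuous h) (g : H) :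
    P μ φ (fun x => f x + h x) g = P μ φ f g + P μ φ h g := by
  simp only [P, mul_add]
  exact integral_add (k.integrable hf g) (k.integrable hh g)

omit [LocallyCompactSpace H] [T2Space H] in
theorem Ker.P_sum (k : Ker μ φ) {ι : Type} (s : Finset ι) {f : ι → H → ℝ}
    (hf : ∀ i ∈ s, Continuous (f i)) (g : H) :
    P μ φ (fun x => ∑ i ∈ s, f i x) g = ∑ i ∈ s, P μ φ (f i) g := by
  simp only [P, Finset.mul_sum]
  exact integral_finsetSum s fun i hi => k.integrable (hf i hi) g

omit [TopologicalSpace H] [IsTopologicalGroup H] [LocallyCompactSpace H] [T2Space H]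
  [BorelSpace H] [μ.IsHaarMeasure] in
theorem P_mul (c : ℝ) (f : H → ℝ) (g : H) : P μ φ (fun x => c * f x) g = c * P μ φ f g := by
  simp only [P, ← integral_const_mul]
  congr 1; ext x; ring

omit [TopologicalSpace H] [IsTopologicalGroup H] [LocallyCompactSpace H] [T2Space H]
  [BorelSpace H] [μ.IsHaarMeasure] in
theorem P_left (f : H → ℝ) (a g : H) : P μ φ (fun x => f (a * x)) g = P μ φ f (a * g) := by
  simp only [P, mul_assoc]

omit [LocallyCompactSpace H] [T2Space H] in
theorem Ker.P_le (k : Ker μ φ) {f : H → ℝ} (hf : Continuous f) {g : H} {c : ℝ}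
    (h : ∀ x ∈ tsupport φ, f (g * x) ≤ c) : P μ φ f g ≤ c := by
  rw [← k.P_const c g]
  refine integral_mono (k.integrable hf g) (k.integrable (f := fun _ => c) continuous_const g)
    fun x => ?_
  by_cases hx : x ∈ tsupport φ
  · exact mul_le_mul_of_nonneg_left (h x hx) (k.nonneg x)
  · simp [image_eq_zero_of_notMem_tsupport hx]

omit [LocallyCompactSpace H] [T2Space H] in
theorem Ker.le_P (k : Ker μ φ) {f : H → ℝ} (hf : Continuous f) {g : H} {c : ℝ}
    (h : ∀ x ∈ tsupport φ, c ≤ f (g * x)) : c ≤ P μ φ f g := by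
  rw [← k.P_const c g]
  refine integral_mono (k.integrable (f := fun _ => c) continuous_const g) (k.integrable hf g)
    fun x => ?_
  by_cases hx : x ∈ tsupport φ
  · exact mul_le_mul_of_nonneg_left (h x hx) (k.nonneg x)
  · simp [image_eq_zero_of_notMem_tsupport hx]

omit [LocallyCompactSpace H] [T2Space H] in
theorem Ker.abs_P_le (k : Ker μ φ) {f : H → ℝ} (hf : Continuous f) {g : H} {c : ℝ}
    (h : ∀ x ∈ tsupport φ, |f (g * x)| ≤ c) : |P μ φ f g| ≤ c :=
  abs_le.2 ⟨k.le_P hf fun x hx => (abs_le.1 (h x hx)).1, k.P_le hf fun x hx => (abs_le.1 (h x hx)).2⟩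

omit [LocallyCompactSpace H] [T2Space H] in
theorem Ker.P_congr (_k : Ker μ φ) {f h : H → ℝ} {g : H}
    (e : ∀ x ∈ tsupport φ, f (g * x) = h (g * x)) : P μ φ f g = P μ φ h g := by
  simp only [P]
  congr 1; ext x
  by_cases hx : x ∈ tsupport φ
  · rw [e x hx]
  · simp [image_eq_zero_of_notMem_tsupport hx]

omit [LocallyCompactSpace H] in
theorem Ker.supp_P (k : Ker μ φ) {f : H → ℝ} (hf : HasCompactSupport f) :
    HasCompactSupport (P μ φ f) := by
  refine HasCompactSupport.intro (hf.isCompact.mul k.supp.isCompact) fun g hg => ?_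
  rw [← k.P_const 0 g]
  refine k.P_congr fun x hx => ?_
  by_contra h
  exact hg ⟨g * x, subset_tsupport _ h, x⁻¹, k.inv_mem hx, by simp⟩

omit [LocallyCompactSpace H] [T2Space H] in
theorem P_eq (f : H → ℝ) (g : H) : P μ φ f g = ∫ z, φ (g⁻¹ * z) * f z ∂μ := by
  rw [← integral_mul_left_eq_self (fun z => φ (g⁻¹ * z) * f z) g]
  simp [P]

omit [LocallyCompactSpace H] in
/-- The operator is symmetric. -/
theorem Ker.P_symm (k : Ker μ φ) {a b : H → ℝ} (ha : Continuous a) (hs : HasCompactSupport a)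
    (hb : Continuous b) : ∫ g, P μ φ a g * b g ∂μ = ∫ g, a g * P μ φ b g ∂μ := by
  simp only [P_eq, ← integral_mul_const, ← integral_const_mul]
  rw [integral_integral_swap_of_hasCompactSupport]
  · congr 1; ext z; congr 1; ext g
    rw [← k.symm (g⁻¹ * z), mul_inv_rev, inv_inv]; ring
  · exact ((k.cont.comp (continuous_fst.inv.mul continuous_snd)).mul (ha.comp continuous_snd)).mul
      (hb.comp continuous_fst)
  · refine HasCompactSupport.intro ((hs.isCompact.mul k.supp.isCompact).prod hs.isCompact) ?_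
    rintro ⟨g, z⟩ h
    by_contra h1
    simp only [Function.uncurry_apply_pair, mul_eq_zero, not_or] at h1
    refine h ⟨⟨z, subset_tsupport _ h1.1.2, (g⁻¹ * z)⁻¹,
      k.inv_mem (subset_tsupport _ h1.1.1), by simp⟩, subset_tsupport _ h1.1.2⟩

omit [LocallyCompactSpace H] in
theorem Ker.integral_P (k : Ker μ φ) {a : H → ℝ} (ha : Continuous a) (hs : HasCompactSupport a) :
    ∫ g, P μ φ a g ∂μ = ∫ g, a g ∂μ := by
  have h := k.P_symm ha hs (continuous_const (y := (1 : ℝ)))
  simpa [k.P_const] using h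

omit [LocallyCompactSpace H] [T2Space H] in
/-- The maximum principle. -/
theorem Ker.max_principle (k : Ker μ φ) {d : H → ℝ} (hd : Continuous d)
    (hh : ∀ g, P μ φ d g = d g) {s : ℝ} (hs : ∀ g, d g ≤ s) {g₀ : H} (h0 : d g₀ = s) (g : H) :
    d g = s := by
  have step : ∀ g, d g = s → ∀ x, 0 < φ x → d (g * x) = s := by
    intro g hg x hx
    by_contra hne
    have h1 : 0 < ∫ y, φ y * (s - d (g * y)) ∂μ :=
      Continuous.integral_pos_of_hasCompactSupport_nonneg_nonzero (x := x)
        (k.cont.mul (continuous_const.sub (hd.comp (continuous_const.mul continuous_id))))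
        k.supp.mul_right (fun y => mul_nonneg (k.nonneg y) (sub_nonneg.2 (hs _)))
        (mul_ne_zero hx.ne' (sub_ne_zero.2 (Ne.symm hne)))
    have h2 := k.P_sub (f := fun _ => s) continuous_const hd g
    rw [k.P_const, hh, hg, sub_self] at h2
    exact h1.ne' h2
  have hg : g₀⁻¹ * g ∈ Subgroup.closure {x | 0 < φ x} := by rw [k.gen]; trivial
  have key : ∀ y ∈ Subgroup.closure {x | 0 < φ x}, d (g₀ * y) = s := by
    intro y hy
    induction hy using Subgroup.closure_induction_right with
    | one => simpa using h0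
    | mul_right x _ y hy ih => rw [← mul_assoc]; exact step _ ih y hy
    | mul_inv_cancel x _ y hy ih =>
      rw [← mul_assoc]; exact step _ ih _ (by rw [k.symm]; exact hy)
  simpa using key _ hg

omit [LocallyCompactSpace H] in
theorem Ker.cont_eta (k : Ker μ φ) : ContinuousOn (eta μ φ) (tsupport φ) := by
  refine continuousOn_integral_of_compact_support (f := fun y x => |φ (y⁻¹ * x) - φ x|)
    (k.supp.isCompact.mul k.supp.isCompact) (Continuous.continuousOn ?_) fun y x hy hx => ?_
  · exact ((k.cont.comp (continuous_fst.inv.mul continuous_snd)).sub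
      (k.cont.comp continuous_snd)).abs
  · have h1 : φ x = 0 := by
      by_contra h
      exact hx ⟨1, k.one_mem, x, subset_tsupport _ h, by simp⟩
    have h2 : φ (y⁻¹ * x) = 0 := by
      by_contra h
      exact hx ⟨y, hy, y⁻¹ * x, subset_tsupport _ h, by simp⟩
    simp [h1, h2]

omit [LocallyCompactSpace H] in
theorem Ker.tendsto_eta (k : Ker μ φ) : Tendsto (eta μ φ) (𝓝 1) (𝓝 0) := by
  have h := (k.cont_eta.continuousAt k.nhds).tendsto
  simpa [eta] using h

omit [LocallyCompactSpace H] in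
theorem Ker.eta_bdd (k : Ker μ φ) : ∃ E, 0 ≤ E ∧ ∀ x ∈ tsupport φ, eta μ φ x ≤ E := by
  obtain ⟨E, hE⟩ := k.supp.isCompact.bddAbove_image k.cont_eta
  exact ⟨max E 0, le_max_right _ _, fun x hx => (hE ⟨x, hx, rfl⟩).trans (le_max_left _ _)⟩

omit [LocallyCompactSpace H] in
/-- Averaging produces a modulus of continuity. -/
theorem Ker.modulus (k : Ker μ φ) {f : H → ℝ} (hf : Continuous f) {L : ℝ} (hL : Lip φ L f)
    (g : H) {y : H} (hy : y ∈ tsupport φ) :
    |P μ φ f (g * y) - P μ φ f g| ≤ 2 * L * eta μ φ y := by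
  have hc : Continuous fun z => f (g * z) - f g :=
    (hf.comp (continuous_const.mul continuous_id)).sub continuous_const
  have hφ : Continuous fun z => φ (y⁻¹ * z) := k.cont.comp (continuous_const.mul continuous_id)
  have hφs : HasCompactSupport fun z => φ (y⁻¹ * z) :=
    k.supp.comp_homeomorph (Homeomorph.mulLeft y⁻¹)
  have h1 : P μ φ f (g * y) - f g = ∫ z, φ (y⁻¹ * z) * (f (g * z) - f g) ∂μ := by
    rw [← P_eq (fun z => f (g * z) - f g) y, k.P_sub (f := fun z => f (g * z))
      (hf.comp (continuous_const.mul continuous_id)) continuous_const, k.P_const, P_left]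
  have h2 : P μ φ f g - f g = ∫ z, φ z * (f (g * z) - f g) ∂μ := by
    have := k.P_sub hf (continuous_const (y := f g)) g
    rw [k.P_const] at this
    exact this.symm
  have i1 : Integrable (fun z => φ (y⁻¹ * z) * (f (g * z) - f g)) μ :=
    (hφ.mul hc).integrable_of_hasCompactSupport hφs.mul_right
  have h3 : P μ φ f (g * y) - P μ φ f g =
      ∫ z, (φ (y⁻¹ * z) * (f (g * z) - f g) - φ z * (f (g * z) - f g)) ∂μ := by
    rw [integral_sub i1 (k.integrable' hc), ← h1, ← h2]; ring
  rw [h3, eta, ← integral_const_mul]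
  refine (abs_integral_le_integral_abs).trans (integral_mono (i1.sub (k.integrable' hc)).abs
    (Integrable.const_mul ((hφ.integrable_of_hasCompactSupport hφs).sub
      (k.cont.integrable_of_hasCompactSupport k.supp)).abs _) fun z => ?_)
  simp only
  rw [← sub_mul, abs_mul, mul_comm]
  by_cases hz : φ (y⁻¹ * z) - φ z = 0
  · simp [hz]
  refine mul_le_mul_of_nonneg_right ?_ (abs_nonneg _)
  have hz2 : z ∈ tsupport φ ^ 2 := by
    rw [pow_two]
    by_cases h : φ z = 0
    · exact ⟨y, hy, y⁻¹ * z, subset_tsupport _ (by simpa [h] using hz), by simp⟩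
    · exact ⟨1, k.one_mem, z, subset_tsupport _ h, by simp⟩
  exact_mod_cast hL.pow 2 g z hz2

end Vale.Agent.P011N.N
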