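import Vale.Agent.P011N.Iface
import Vale.Agent.P011N.N.Basic

/-!
Invariant harmonic functions are constant; the gradient estimate.
-/

open MeasureTheory Topology Set Filter Pointwise

namespace Vale.Agent.P011N.N

variable {H : Type} [Group H] [TopologicalSpace H] [IsTopologicalGroup H] [LocallyCompactSpace H]
  [T2Space H] [MeasurableSpace H] [BorelSpace H]

omit [LocallyCompactSpace H] [T2Space H] [MeasurableSpace H] [BorelSpace H] in
theorem equi {S : Set H} (hS : S ∈ 𝓝 (1 : H)) {ω : H → ℝ} (hω : Tendsto ω (𝓝 1) (𝓝 0))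
    {ι : Type} {F : ι → H → ℝ} (h : ∀ i g, ∀ x ∈ S, |F i (g * x) - F i g| ≤ ω x) :
    Equicontinuous F := by
  intro g
  rw [Metric.equicontinuousAt_iff_right]
  intro ε hε
  have ht : Tendsto (fun y => g⁻¹ * y) (𝓝 g) (𝓝 1) := by
    simpa using (continuous_const_mul g⁻¹).tendsto g
  filter_upwards [ht hS, ht (hω (gt_mem_nhds hε))] with y h1 h2 i
  have h3 := h i g (g⁻¹ * y) h1
  rw [mul_inv_cancel_left] at h3
  rw [dist_comm, Real.dist_eq]
  exact h3.trans_lt h2

omit [LocallyCompactSpace H] [T2Space H] [MeasurableSpace H] [BorelSpace H] in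
theorem compact_family {S : Set H} (hS : S ∈ 𝓝 (1 : H)) {ω : H → ℝ} (hω : Tendsto ω (𝓝 1) (𝓝 0))
    (b : H → ℝ) :
    IsCompact {u : C(H, ℝ) | (∀ g, |u g| ≤ b g) ∧ ∀ g, ∀ x ∈ S, |u (g * x) - u g| ≤ ω x} := by
  refine ArzelaAscoli.isCompact_of_equicontinuous _ ?_ (equi hS hω fun u => u.2.2)
  have e : ContinuousMap.toFun '' {u : C(H, ℝ) | (∀ g, |u g| ≤ b g) ∧
      ∀ g, ∀ x ∈ S, |u (g * x) - u g| ≤ ω x} =
      (Set.pi univ fun g => Icc (-b g) (b g)) ∩
        {v : H → ℝ | ∀ g, ∀ x ∈ S, |v (g * x) - v g| ≤ ω x} := by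
    ext v
    constructor
    · rintro ⟨u, hu, rfl⟩
      exact ⟨fun g _ => abs_le.1 (hu.1 g), hu.2⟩
    · rintro ⟨h1, h2⟩
      exact ⟨⟨v, (equi (F := fun _ : Unit => v) hS hω fun _ => h2).continuous ()⟩,
        ⟨fun g => abs_le.2 (h1 g trivial), h2⟩, rfl⟩
  rw [e]
  refine (isCompact_univ_pi fun g => isCompact_Icc).inter_right ?_
  simp only [ofPred_forall]
  exact isClosed_iInter fun g => isClosed_iInter fun x => isClosed_iInter fun _ =>
    isClosed_le (by fun_prop) continuous_const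

variable {μ : Measure H} [μ.IsHaarMeasure] {φ : H → ℝ}

omit [T2Space H] in
theorem Ker.cont_P_map (k : Ker μ φ) (g : H) : Continuous fun u : C(H, ℝ) => P μ φ u g := by
  rw [← continuousOn_univ]
  refine continuousOn_integral_of_compact_support (f := fun (u : C(H, ℝ)) x => φ x * u (g * x))
    k.supp (Continuous.continuousOn ?_) fun p x _ hx => ?_
  · exact (k.cont.comp continuous_snd).mul
      (continuous_fst.eval (continuous_const.mul continuous_snd))
  · simp [image_eq_zero_of_notMem_tsupport hx]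

omit [LocallyCompactSpace H] [T2Space H] [MeasurableSpace H] [BorelSpace H] in
theorem lat_of_le {Γ Γ' N : Subgroup H} (h : Lat Γ N) (hle : Γ' ≤ Γ) (hi : Γ'.relIndex Γ ≠ 0) :
    Lat Γ' N := by
  refine ⟨fun C hC => (h.disc C hC).subset (inter_subset_inter_right _ hle), ?_,
    fun γ hγ => h.norm γ (hle hγ), fun n hn => ?_⟩
  · obtain ⟨K, hK, hc⟩ := h.coc
    have : (Γ'.subgroupOf Γ).FiniteIndex := ⟨hi⟩
    let F : Set H := range fun q : Γ ⧸ Γ'.subgroupOf Γ => ((q.out : Γ) : H)⁻¹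
    have hF : F.Finite := finite_range _
    refine ⟨F * K, hF.isCompact.mul hK, fun g => ?_⟩
    obtain ⟨γ, hγ, hk⟩ := hc g
    obtain ⟨δ, hδ⟩ := QuotientGroup.mk_out_eq_mul (Γ'.subgroupOf Γ) (⟨γ, hγ⟩ : Γ)⁻¹
    refine ⟨δ.1.1, δ.2, _, ⟨QuotientGroup.mk (⟨γ, hγ⟩ : Γ)⁻¹, rfl⟩, γ⁻¹ * g, hk, ?_⟩
    simp only [hδ]; simp
  · exact mt (Subgroup.relIndex_eq_zero_of_le_right hle) (Subgroup.relIndex_ne_zero_trans
      (Subgroup.relIndex_comap_ne_zero _ hi) (h.comm n hn))

omit [LocallyCompactSpace H] [T2Space H] [MeasurableSpace H] [BorelSpace H] in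
theorem lat_conj {Γ N : Subgroup H} (h : Lat Γ N) {n : H} (hn : n ∈ N) :
    Lat (Γ ⊓ Γ.comap (MulAut.conj n).toMonoidHom) N :=
  lat_of_le h inf_le_left (by rw [Subgroup.inf_relIndex_left]; exact h.comm n hn)

omit [IsTopologicalGroup H] [LocallyCompactSpace H] [T2Space H] [MeasurableSpace H]
  [BorelSpace H] in
theorem swap_eq {Γ N : Subgroup H} (hl : Lat Γ N) {h : H → ℝ}
    (hM : ∀ m ∈ Γ ⊓ N, ∀ g, h (m * g) = h g) {n : H} (hn : n ∈ N) {γ : H}
    (hγ : γ ∈ Γ ⊓ Γ.comap (MulAut.conj n).toMonoidHom) (g : H) :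
    h (n * (γ * g)) = h (γ * (n * g)) := by
  have h1 : n * γ * n⁻¹ ∈ Γ := hγ.2
  have h2 : n * γ * n⁻¹ * γ⁻¹ ∈ Γ ⊓ N := by
    refine ⟨Γ.mul_mem h1 (Γ.inv_mem hγ.1), ?_⟩
    have h3 := N.mul_mem hn (hl.norm γ hγ.1 n⁻¹ (N.inv_mem hn))
    show _ ∈ N
    simpa only [mul_assoc] using h3
  rw [← hM _ h2 (γ * (n * g))]
  congr 1; group

/-- Bounded invariant harmonic functions are constant. -/
theorem Ker.liouville (k : Ker μ φ) {Γ N : Subgroup H} (hl : Lat Γ N) (hd : Dense (N : Set H))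
    {h : H → ℝ} (hc : Continuous h) {B : ℝ} (hB : ∀ g, |h g| ≤ B) (hh : ∀ g, P μ φ h g = h g)
    (hM : ∀ m ∈ Γ ⊓ N, ∀ g, h (m * g) = h g) (g : H) : h g = h 1 := by
  have hL : Lip φ (2 * B) h := fun g x _ =>
    (abs_sub _ _).trans (by linarith [hB (g * x), hB g])
  have key : ∀ n ∈ N, ∀ g, h g ≤ h (n * g) := by
    intro n hn
    obtain ⟨K, hK, hcov⟩ := (lat_conj hl hn).coc
    have hbd : BddAbove (range fun g => h g - h (n * g)) :=
      ⟨2 * B, by
        rintro _ ⟨g, rfl⟩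
        linarith [(abs_le.1 (hB g)).2, (abs_le.1 (hB (n * g))).1]⟩
    set s := ⨆ g, (h g - h (n * g)) with hs
    let X : Set C(H, ℝ) := {u : C(H, ℝ) | (∀ g, |u g| ≤ B) ∧
      ∀ g, ∀ x ∈ tsupport φ, |u (g * x) - u g| ≤ 2 * (2 * B) * eta μ φ x} ∩
      ({u | ∀ g, P μ φ u g = u g} ∩ {u | ∀ g, u g - u (n * g) ≤ s})
    have hX : IsCompact X := by
      refine (compact_family k.nhds (by simpa using k.tendsto_eta.const_mul (2 * (2 * B)))
        fun _ => B).inter_right (IsClosed.inter ?_ ?_)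
      · simp only [ofPred_forall]
        exact isClosed_iInter fun g => isClosed_eq (k.cont_P_map g) (by fun_prop)
      · simp only [ofPred_forall]
        exact isClosed_iInter fun g => isClosed_le (by fun_prop) continuous_const
    let tr : H → C(H, ℝ) := fun γ => ⟨fun g => h (γ * g), hc.comp (continuous_const_mul γ)⟩
    have htr : ∀ γ ∈ Γ ⊓ Γ.comap (MulAut.conj n).toMonoidHom, tr γ ∈ X := by
      intro γ hγ
      refine ⟨⟨fun g => hB _, fun g x hx => ?_⟩, fun g => ?_, fun g => ?_⟩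
      · have h1 := k.modulus hc hL (γ * g) hx
        rw [hh, hh, mul_assoc] at h1
        exact h1
      · exact (P_left h γ g).trans (hh _)
      · have h1 := le_ciSup hbd (γ * g)
        rw [swap_eq hl hM hn hγ] at h1
        exact h1
    obtain ⟨γ₀, hγ₀, hk₀⟩ := hcov 1
    obtain ⟨⟨u, κ⟩, ⟨hu, -⟩, hmax⟩ := (hX.prod hK).exists_isMaxOn
      (f := fun p : C(H, ℝ) × H => p.1 p.2 - p.1 (n * p.2))
      ⟨(tr γ₀, γ₀⁻¹ * 1), htr _ hγ₀, hk₀⟩ (Continuous.continuousOn (by fun_prop))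
    have hsu : u κ - u (n * κ) = s := by
      refine le_antisymm (hu.2.2 κ) (ciSup_le fun g => ?_)
      obtain ⟨γ, hγ, hk⟩ := hcov g
      have h1 : tr γ (γ⁻¹ * g) - tr γ (n * (γ⁻¹ * g)) ≤ u κ - u (n * κ) :=
        hmax (show (tr γ, γ⁻¹ * g) ∈ X ×ˢ K from ⟨htr γ hγ, hk⟩)
      have h2 := swap_eq hl hM hn hγ (γ⁻¹ * g)
      simp only [tr, ContinuousMap.coe_mk, mul_inv_cancel_left] at h1 h2
      rw [h2]; exact h1
    have hall : ∀ g, u g - u (n * g) = s :=
      k.max_principle (d := fun g => u g - u (n * g)) (by fun_prop) (fun g => by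
        rw [k.P_sub (h := fun g => u (n * g)) u.continuous (by fun_prop), P_left u n,
          hu.2.1, hu.2.1]) hu.2.2 hsu
    have hpow : ∀ j : ℕ, u (n ^ j) = u 1 - j * s := by
      intro j
      induction j with
      | zero => simp
      | succ j ih => rw [pow_succ']; push_cast; linarith [hall (n ^ j)]
    have hs0 : s ≤ 0 := by
      by_contra h0
      obtain ⟨j, hj⟩ := exists_nat_gt (2 * B / s)
      rw [div_lt_iff₀ (not_le.1 h0)] at hj
      linarith [hpow j, (abs_le.1 (hu.1.1 1)).2, (abs_le.1 (hu.1.1 (n ^ j))).1]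
    intro g
    linarith [le_ciSup hbd g]
  have h1 : ∀ n ∈ N, h n = h 1 := fun n hn =>
    le_antisymm (by simpa using key n⁻¹ (N.inv_mem hn) n) (by simpa using key n hn 1)
  exact congrFun (hc.ext_on hd continuous_const h1) g

/-- Lipschitz invariant harmonic functions are constant. -/
theorem Ker.liouville_lip (k : Ker μ φ) {Γ N : Subgroup H} (hl : Lat Γ N)
    (hd : Dense (N : Set H)) (hχ : ∀ χ : H →* Multiplicative ℝ, Continuous χ → ∀ h, χ h = 1)
    {h : H → ℝ} (hc : Continuous h) {L : ℝ} (hL : Lip φ L h) (hh : ∀ g, P μ φ h g = h g)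
    (hM : ∀ m ∈ Γ ⊓ N, ∀ g, h (m * g) = h g) (g : H) : h g = h 1 := by
  have key : ∀ n ∈ N, ∀ g, h g - h (n * g) = h 1 - h (n * 1) := by
    intro n hn
    obtain ⟨K, hK, hcov⟩ := (lat_conj hl hn).coc
    obtain ⟨j, hj⟩ := k.compact_pow (hK.image (f := fun κ => κ⁻¹ * n * κ) (by fun_prop))
    refine k.liouville (h := fun g => h g - h (n * g)) (lat_conj hl hn) hd (by fun_prop)
      (B := j * L) (fun g => ?_) (fun g => ?_) fun m hm g => ?_
    · obtain ⟨γ, hγ, hk⟩ := hcov g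
      have h1 := hL.pow j g _ (hj ⟨_, hk, rfl⟩)
      have h2 := swap_eq hl hM hn hγ (γ⁻¹ * g)
      rw [mul_inv_cancel_left] at h2
      rw [h2, abs_sub_comm]
      convert h1 using 3
      group
    · rw [k.P_sub (h := fun g => h (n * g)) hc (by fun_prop), P_left h n, hh, hh]
    · rw [swap_eq hl hM hn hm.1, hM m ⟨hm.1.1, hm.2⟩, hM m ⟨hm.1.1, hm.2⟩]
  have h1 : ∀ x g, h (x * g) - h 1 = (h x - h 1) + (h g - h 1) := by
    intro x g
    refine congrFun (Continuous.ext_on (f := fun x => h (x * g) - h 1)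
      (g := fun x => (h x - h 1) + (h g - h 1)) hd (by fun_prop) (by fun_prop) fun n hn => ?_) x
    have h2 := key n hn g
    rw [mul_one] at h2
    simp only
    linarith
  have h2 := hχ (MonoidHom.mk' (fun x => Multiplicative.ofAdd (h x - h 1)) fun x y => by
    rw [h1, ofAdd_add]) (continuous_ofAdd.comp (hc.sub continuous_const)) g
  exact sub_eq_zero.1 (congrArg Multiplicative.toAdd h2)

/-- The gradient estimate. -/
theorem Ker.grad (k : Ker μ φ) {Γ N : Subgroup H} (hl : Lat Γ N)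
    (hd : Dense (N : Set H)) (hχ : ∀ χ : H →* Multiplicative ℝ, Continuous χ → ∀ h, χ h = 1) :
    ∃ C : ℝ, 0 ≤ C ∧ ∀ (u : H → ℝ) (B ε : ℝ), Continuous u → (∀ g, |u g| ≤ B) →
      (∀ m ∈ Γ ⊓ N, ∀ g, u (m * g) = u g) → (∀ g, |u g - P μ φ u g| ≤ ε) → Lip φ (C * ε) u := by
  by_contra hcon
  push Not at hcon
  obtain ⟨K, hK, hcov⟩ := hl.coc
  obtain ⟨E, -, hE⟩ := k.eta_bdd
  choose j hj using k.exists_pow
  let X : Set C(H, ℝ) := {u : C(H, ℝ) | (∀ g, |u g| ≤ j g * (2 * E)) ∧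
    ∀ g, ∀ x ∈ tsupport φ, |u (g * x) - u g| ≤ 2 * eta μ φ x} ∩
      {u | ∀ m ∈ Γ ⊓ N, ∀ g, u (m * g) = u g}
  have hX : IsCompact X := by
    refine (compact_family k.nhds (by simpa using k.tendsto_eta.const_mul 2) _).inter_right ?_
    simp only [ofPred_forall]
    exact isClosed_iInter fun m => isClosed_iInter fun _ => isClosed_iInter fun g =>
      isClosed_eq (by fun_prop) (by fun_prop)
  let Z : ℕ → Set (C(H, ℝ) × H × H) := fun n => (X ×ˢ K ×ˢ tsupport φ) ∩
    ({p | 1 / 4 ≤ |p.1 (p.2.1 * p.2.2) - p.1 p.2.1|} ∩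
      {p | ∀ g, |p.1 g - P μ φ p.1 g| ≤ 1 / (n + 8)})
  have hZc : ∀ n, IsCompact (Z n) := by
    intro n
    refine (hX.prod (hK.prod k.supp.isCompact)).inter_right
      ((isClosed_le continuous_const (by fun_prop)).inter ?_)
    simp only [ofPred_forall]
    exact isClosed_iInter fun g => isClosed_le (Continuous.abs (Continuous.sub (by fun_prop)
      ((k.cont_P_map g).comp continuous_fst))) continuous_const
  have hZn : ∀ n, (Z n).Nonempty := by
    intro n
    have hn : (0 : ℝ) < n + 8 := by positivity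
    obtain ⟨u, B, ε, hc, hB, hM, hε, hL⟩ := hcon (n + 8) hn.le
    have hbd : BddAbove (range fun p : H × tsupport φ => |u (p.1 * p.2) - u p.1|) :=
      ⟨2 * B, by
        rintro _ ⟨p, rfl⟩
        exact (abs_sub _ _).trans (by linarith [hB (p.1 * p.2), hB p.1])⟩
    have : Nonempty (tsupport φ) := ⟨⟨1, k.one_mem⟩⟩
    set D := ⨆ p : H × tsupport φ, |u (p.1 * p.2) - u p.1| with hD
    have hle : ∀ g, ∀ x ∈ tsupport φ, |u (g * x) - u g| ≤ D := fun g x hx =>
      le_ciSup hbd (g, ⟨x, hx⟩)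
    have hlt : (n + 8) * ε < D := by
      simp only [Lip, not_forall, not_le] at hL
      obtain ⟨g, x, hx, h1⟩ := hL
      exact h1.trans_le (hle g x hx)
    have hε0 : 0 ≤ ε := (abs_nonneg _).trans (hε 1)
    have hD0 : 0 < D := (mul_nonneg hn.le hε0).trans_lt hlt
    obtain ⟨⟨g₀, x₀, hx₀⟩, h0⟩ := exists_lt_of_lt_ciSup (show D / 2 < D by linarith)
    obtain ⟨γ, hγ, hκ⟩ := hcov g₀
    let w : H → ℝ := fun g => D⁻¹ * u g
    have hwc : Continuous w := continuous_const.mul hc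
    have hwL : Lip φ 1 w := fun g x hx => by
      rw [← mul_sub, abs_mul, abs_of_pos (inv_pos.2 hD0), inv_mul_le_one₀ hD0]
      exact hle g x hx
    have hwε : ∀ g, |w g - P μ φ w g| ≤ 1 / (n + 8) := fun g => by
      rw [P_mul, ← mul_sub, abs_mul, abs_of_pos (inv_pos.2 hD0), inv_mul_le_iff₀ hD0,
        mul_one_div, le_div_iff₀ hn]
      nlinarith [hε g]
    have hPc := k.cont_P hwc
    have hmod : ∀ g, ∀ x ∈ tsupport φ, |P μ φ w (g * x) - P μ φ w g| ≤ 2 * eta μ φ x :=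
      fun g x hx => by simpa using k.modulus hwc hwL g hx
    have hPL : Lip φ (2 * E) (P μ φ w) := fun g x hx =>
      (hmod g x hx).trans (by linarith [hE x hx])
    refine ⟨(⟨fun g => P μ φ w (γ * g) - P μ φ w γ, by fun_prop⟩, γ⁻¹ * g₀, x₀),
      ⟨⟨⟨fun g => hPL.pow _ γ g (hj g), fun g x hx => ?_⟩, fun m hm g => ?_⟩, hκ, hx₀⟩, ?_,
      fun g => ?_⟩
    · simpa [mul_assoc] using hmod (γ * g) x hx
    · simp only [ContinuousMap.coe_mk, sub_left_inj]
      rw [show γ * (m * g) = γ * m * γ⁻¹ * (γ * g) by group, ← P_left]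
      congr 1
      ext y
      simp only [w]
      rw [hM _ ⟨Γ.mul_mem (Γ.mul_mem hγ hm.1) (Γ.inv_mem hγ), hl.norm γ hγ m hm.2⟩]
    · simp only [mem_ofPred_eq, ContinuousMap.coe_mk, sub_sub_sub_cancel_right, ← mul_assoc,
        mul_inv_cancel, one_mul]
      have h1 : 1 / 2 < |w (g₀ * x₀) - w g₀| := by
        rw [← mul_sub, abs_mul, abs_of_pos (inv_pos.2 hD0), lt_inv_mul_iff₀ hD0]
        linarith
      have h2 : (1 : ℝ) / (n + 8) ≤ 1 / 8 :=
        one_div_le_one_div_of_le (by norm_num) (by linarith [Nat.cast_nonneg (α := ℝ) n])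
      have h3 := abs_le.1 (hwε (g₀ * x₀))
      have h4 := abs_le.1 (hwε g₀)
      rcases lt_abs.1 h1 with h5 | h5
      · exact le_abs.2 (Or.inl (by linarith))
      · exact le_abs.2 (Or.inr (by linarith))
    · simp only [ContinuousMap.coe_mk]
      rw [k.P_sub (f := fun g => P μ φ w (γ * g)) (by fun_prop) continuous_const, k.P_const,
        P_left, sub_sub_sub_cancel_right, ← k.P_sub hwc hPc]
      exact k.abs_P_le (hwc.sub hPc) fun x _ => hwε _
  obtain ⟨⟨v, κ, x⟩, hv⟩ := IsCompact.nonempty_iInter_of_sequence_nonempty_isCompact_isClosed Z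
    (fun n p hp => ⟨hp.1, hp.2.1, fun g => (hp.2.2 g).trans
      (one_div_le_one_div_of_le (by positivity) (by push_cast; linarith))⟩) hZn (hZc 0)
    fun n => (hZc n).isClosed
  rw [mem_iInter] at hv
  have hh : ∀ g, P μ φ v g = v g := by
    intro g
    by_contra hne
    have h1 : 0 < |v g - P μ φ v g| := abs_pos.2 (sub_ne_zero.2 (Ne.symm hne))
    obtain ⟨n, hn⟩ := exists_nat_one_div_lt h1
    have h2 : (1 : ℝ) / (n + 8) ≤ 1 / (n + 1) :=
      one_div_le_one_div_of_le (by positivity) (by linarith)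
    exact absurd ((hv n).2.2 g) (not_le.2 (h2.trans_lt hn))
  have hv0 := hv 0
  have hconst := k.liouville_lip hl hd hχ v.continuous (L := 2 * E)
    (fun g x hx => (hv0.1.1.1.2 g x hx).trans (by linarith [hE x hx])) hh hv0.1.1.2
  have h1 : 1 / 4 ≤ |v (κ * x) - v κ| := hv0.2.1
  rw [hconst (κ * x), hconst κ, sub_self, abs_zero] at h1
  norm_num at h1

end Vale.Agent.P011N.N
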