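import Vale.Agent.P011N.N.Liou

/-!
Sums over a discrete subgroup, partitions of unity, existence of kernels.
-/

open MeasureTheory Topology Set Filter Pointwise

namespace Vale.Agent.P011N.N

variable {H : Type} [Group H] [TopologicalSpace H] [IsTopologicalGroup H] [LocallyCompactSpace H]
  [T2Space H] [MeasurableSpace H] [BorelSpace H]

/-- The weighted sum over the subgroup. -/
noncomputable def per (Γ : Subgroup H) (b : Γ → ℝ) (a : H → ℝ) (h : H) : ℝ :=
  ∑ᶠ γ : Γ, b γ * a (γ * h)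

section

omit [LocallyCompactSpace H] [T2Space H] [MeasurableSpace H] [BorelSpace H]

variable {Γ N : Subgroup H}

theorem exists_finset (hl : Lat Γ N) {a : H → ℝ} (ha : HasCompactSupport a) {T : Set H}
    (hT : IsCompact T) : ∃ F : Finset Γ, ∀ h ∈ T, ∀ γ : Γ, γ ∉ F → a (γ * h) = 0 := by
  have h1 := (hl.disc _ (ha.isCompact.mul hT.inv)).preimage
    (Subtype.val_injective (p := fun x => x ∈ Γ)).injOn
  refine ⟨h1.toFinset, fun h hh γ hγ => ?_⟩
  by_contra h2
  exact hγ (h1.mem_toFinset.2 ⟨⟨γ * h, subset_tsupport _ h2, h⁻¹, Set.inv_mem_inv.2 hh, by simp⟩,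
    γ.2⟩)

omit [TopologicalSpace H] [IsTopologicalGroup H] in
theorem per_eq {a : H → ℝ} {F : Finset Γ} {h : H} (hF : ∀ γ : Γ, γ ∉ F → a (γ * h) = 0)
    (b : Γ → ℝ) : per Γ b a h = ∑ γ ∈ F, b γ * a (γ * h) :=
  finsum_eq_sum_of_support_subset _ fun γ hγ => by
    by_contra h1
    exact hγ (by simp [hF γ h1])

theorem per_mono (hl : Lat Γ N) {a : H → ℝ} (ha : HasCompactSupport a) {b b' : Γ → ℝ} {h : H}
    (hb : ∀ γ, b γ * a (γ * h) ≤ b' γ * a (γ * h)) : per Γ b a h ≤ per Γ b' a h := by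
  obtain ⟨F, hF⟩ := exists_finset hl ha (isCompact_singleton (x := h))
  rw [per_eq (hF h rfl), per_eq (hF h rfl)]
  exact Finset.sum_le_sum fun γ _ => hb γ

theorem per_lin (hl : Lat Γ N) {a : H → ℝ} (ha : HasCompactSupport a) (b b' : Γ → ℝ) (c c' : ℝ)
    (h : H) : per Γ (fun γ => c * b γ + c' * b' γ) a h = c * per Γ b a h + c' * per Γ b' a h := by
  obtain ⟨F, hF⟩ := exists_finset hl ha (isCompact_singleton (x := h))
  simp only [per_eq (hF h rfl), Finset.mul_sum, ← Finset.sum_add_distrib]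
  exact Finset.sum_congr rfl fun γ _ => by ring

theorem per_add (hl : Lat Γ N) {a a' : H → ℝ} (ha : HasCompactSupport a)
    (ha' : HasCompactSupport a') (b : Γ → ℝ) (h : H) :
    per Γ b (fun x => a x + a' x) h = per Γ b a h + per Γ b a' h := by
  classical
  obtain ⟨F, hF⟩ := exists_finset hl ha (isCompact_singleton (x := h))
  obtain ⟨F', hF'⟩ := exists_finset hl ha' (isCompact_singleton (x := h))
  have h1 : ∀ γ : Γ, γ ∉ F ∪ F' → a (γ * h) = 0 := fun γ hγ =>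
    hF h rfl γ fun h => hγ (Finset.mem_union_left _ h)
  have h2 : ∀ γ : Γ, γ ∉ F ∪ F' → a' (γ * h) = 0 := fun γ hγ =>
    hF' h rfl γ fun h => hγ (Finset.mem_union_right _ h)
  rw [per_eq h1, per_eq h2, per_eq (F := F ∪ F') fun γ hγ => by rw [h1 γ hγ, h2 γ hγ, add_zero],
    ← Finset.sum_add_distrib]
  exact Finset.sum_congr rfl fun γ _ => by ring

omit [TopologicalSpace H] [IsTopologicalGroup H] in
theorem per_shift (b : Γ → ℝ) (a : H → ℝ) (δ : Γ) (h : H) :
    per Γ b a (δ * h) = per Γ (fun γ => b (γ * δ⁻¹)) a h := by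
  unfold per
  rw [← finsum_comp_equiv (Equiv.mulRight δ⁻¹)]
  simp [mul_assoc]

omit [TopologicalSpace H] [IsTopologicalGroup H] in
theorem per_inv {b : Γ → ℝ} (hb : ∀ γ m : Γ, m.1 ∈ N → b (γ * m) = b γ) (a : H → ℝ) :
    ∀ m ∈ Γ ⊓ N, ∀ g, per Γ b a (m * g) = per Γ b a g := by
  intro m hm g
  rw [show m * g = (⟨m, hm.1⟩ : Γ) * g from rfl, per_shift]
  congr 1
  ext γ
  exact hb _ _ (N.inv_mem hm.2)

end

omit [T2Space H] [MeasurableSpace H] [BorelSpace H] in
theorem cont_per {Γ N : Subgroup H} (hl : Lat Γ N) {a : H → ℝ} (hc : Continuous a)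
    (ha : HasCompactSupport a) (b : Γ → ℝ) : Continuous (per Γ b a) := by
  rw [continuous_iff_continuousAt]
  intro h
  obtain ⟨T, hT, hh⟩ := exists_compact_mem_nhds h
  obtain ⟨F, hF⟩ := exists_finset hl ha hT
  refine ContinuousAt.congr (f := fun x => ∑ γ ∈ F, b γ * a (γ * x))
    (Continuous.continuousAt (by fun_prop)) ?_
  filter_upwards [hh] with x hx using (per_eq (hF x hx) b).symm

omit [MeasurableSpace H] [BorelSpace H] in
/-- A partition of unity. -/
theorem exists_psi {Γ N : Subgroup H} (hl : Lat Γ N) : ∃ ψ : H → ℝ, Continuous ψ ∧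
    HasCompactSupport ψ ∧ (∀ x, 0 ≤ ψ x) ∧ ∀ g, per Γ (fun _ => 1) ψ g = 1 := by
  obtain ⟨K, hK, hcov⟩ := hl.coc
  obtain ⟨θ, h1, -, h2, h3⟩ := exists_continuous_one_zero_of_isCompact hK isClosed_empty
    (disjoint_empty K)
  have hpos : ∀ g, 0 < per Γ (fun _ => 1) θ g := by
    intro g
    obtain ⟨F, hF⟩ := exists_finset hl h2 (isCompact_singleton (x := g))
    obtain ⟨γ, hγ, hk⟩ := hcov g
    have h4 : θ (((⟨γ, hγ⟩ : Γ)⁻¹ : Γ) * g) = 1 := h1 hk
    rw [per_eq (hF g rfl)]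
    refine Finset.sum_pos' (fun γ _ => by simpa using (h3 _).1) ⟨(⟨γ, hγ⟩ : Γ)⁻¹, ?_, ?_⟩
    · by_contra h5
      rw [hF g rfl _ h5] at h4
      exact zero_ne_one h4
    · rw [h4]; norm_num
  refine ⟨fun x => θ x * (per Γ (fun _ => 1) θ x)⁻¹, θ.continuous.mul
    ((cont_per hl θ.continuous h2 _).inv₀ fun x => (hpos x).ne'), h2.mul_right,
    fun x => mul_nonneg (h3 x).1 (inv_pos.2 (hpos x)).le, fun g => ?_⟩
  obtain ⟨F, hF⟩ := exists_finset hl h2 (isCompact_singleton (x := g))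
  rw [per_eq (F := F) fun γ hγ => by simp [hF g rfl γ hγ]]
  simp only [per_shift, ← mul_assoc]
  rw [← Finset.sum_mul, ← per_eq (hF g rfl), mul_inv_cancel₀ (hpos g).ne']

variable {μ : Measure H} [μ.IsHaarMeasure] {φ : H → ℝ}

theorem exists_ker (μ : Measure H) [μ.IsHaarMeasure] {W : Set H} (hW : IsCompact W)
    (hg : Subgroup.closure W = ⊤) : ∃ φ, Ker μ φ ∧ W ⊆ tsupport φ := by
  obtain ⟨θ, h1, -, h2, h3⟩ := exists_continuous_one_zero_of_isCompact (hW.insert 1)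
    isClosed_empty (disjoint_empty _)
  have hc : Continuous fun x => θ x + θ x⁻¹ := by fun_prop
  have hs : HasCompactSupport fun x => θ x + θ x⁻¹ :=
    h2.add (h2.comp_homeomorph (Homeomorph.inv H))
  have hp : ∀ x ∈ insert 1 W, 0 < θ x + θ x⁻¹ := fun x hx => by
    have h4 : θ x = 1 := h1 hx
    linarith [(h3 x⁻¹).1]
  have hc0 : 0 < ∫ x, (θ x + θ x⁻¹) ∂μ :=
    hc.integral_pos_of_hasCompactSupport_nonneg_nonzero hs
      (fun x => add_nonneg (h3 x).1 (h3 x⁻¹).1) (hp 1 (mem_insert _ _)).ne'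
  have hp' : ∀ x ∈ insert 1 W, 0 < (∫ x, (θ x + θ x⁻¹) ∂μ)⁻¹ * (θ x + θ x⁻¹) := fun x hx =>
    mul_pos (inv_pos.2 hc0) (hp x hx)
  refine ⟨fun x => (∫ x, (θ x + θ x⁻¹) ∂μ)⁻¹ * (θ x + θ x⁻¹), ⟨continuous_const.mul hc,
    hs.mul_left, fun x => mul_nonneg (inv_pos.2 hc0).le (add_nonneg (h3 x).1 (h3 x⁻¹).1),
    fun x => by rw [inv_inv, add_comm], ?_, hp' 1 (mem_insert _ _), ?_⟩,
    fun x hx => subset_tsupport _ (hp' x (mem_insert_of_mem _ hx)).ne'⟩
  · rw [integral_const_mul, inv_mul_cancel₀ hc0.ne']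
  · rw [eq_top_iff, ← hg]
    exact Subgroup.closure_mono fun x hx => hp' x (mem_insert_of_mem _ hx)

omit [LocallyCompactSpace H] in
theorem Ker.P_per (k : Ker μ φ) {Γ N : Subgroup H} (hl : Lat Γ N) {a : H → ℝ} (hc : Continuous a)
    (ha : HasCompactSupport a) (b : Γ → ℝ) (h : H) :
    P μ φ (per Γ b a) h = per Γ b (P μ φ a) h := by
  obtain ⟨F, hF⟩ := exists_finset hl ha (k.supp.isCompact.image (continuous_const_mul h))
  rw [k.P_congr (h := fun x => ∑ γ ∈ F, b γ * a (γ * x)) fun x hx => per_eq (hF _ ⟨x, hx, rfl⟩) b,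
    k.P_sum F fun γ _ => by fun_prop, per_eq (F := F)]
  · exact Finset.sum_congr rfl fun γ _ => by rw [P_mul, P_left]
  · intro γ hγ
    rw [← k.P_const 0 (γ * h)]
    exact k.P_congr fun x hx => by rw [mul_assoc]; exact hF _ ⟨x, hx, rfl⟩ γ hγ

omit [LocallyCompactSpace H] [T2Space H] in
/-- Folding an integral. -/
theorem fold {Γ N : Subgroup H} (hl : Lat Γ N) {ψ : H → ℝ} (hc : Continuous ψ)
    (hs : HasCompactSupport ψ) (h1 : ∀ g, per Γ (fun _ => 1) ψ g = 1) {W : H → ℝ}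
    (hWc : Continuous W) (hWs : HasCompactSupport W) :
    ∫ g, W g ∂μ = ∫ g, ψ g * per Γ (fun _ => 1) W g ∂μ := by
  classical
  obtain ⟨F, hF⟩ := exists_finset hl hWs hs.isCompact
  have hF' : ∀ g, W g ≠ 0 → ∀ γ : Γ, γ ∉ F.image (fun γ => γ⁻¹) → ψ (γ * g) = 0 := by
    intro g hg γ hγ
    by_contra h2
    refine hg ?_
    have h3 := hF _ (subset_tsupport _ h2) γ⁻¹ fun h => hγ (Finset.mem_image.2 ⟨_, h, inv_inv _⟩)
    simpa using h3
  have e1 : ∀ g, W g = ∑ γ ∈ F, ψ ((γ : H)⁻¹ * g) * W g := by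
    intro g
    by_cases hg : W g = 0
    · simp [hg]
    · have h2 := h1 g
      rw [per_eq (hF' g hg), Finset.sum_image fun _ _ _ _ h => inv_injective h] at h2
      simp only [one_mul, Subgroup.coe_inv] at h2
      rw [← Finset.sum_mul, h2, one_mul]
  have e2 : ∀ g, ψ g * per Γ (fun _ => 1) W g = ∑ γ ∈ F, ψ g * W (γ * g) := by
    intro g
    by_cases hg : ψ g = 0
    · simp [hg]
    · rw [per_eq (hF g (subset_tsupport _ hg)), Finset.mul_sum]
      simp
  rw [integral_congr_ae (Eventually.of_forall e1), integral_congr_ae (Eventually.of_forall e2),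
    integral_finsetSum, integral_finsetSum]
  · refine Finset.sum_congr rfl fun γ _ => ?_
    rw [← integral_mul_left_eq_self (fun g => ψ ((γ : H)⁻¹ * g) * W g) γ]
    simp
  · exact fun γ _ => Continuous.integrable_of_hasCompactSupport (by fun_prop) hs.mul_right
  · exact fun γ _ => Continuous.integrable_of_hasCompactSupport (by fun_prop) hWs.mul_left

end Vale.Agent.P011N.N
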